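import Mathlib

namespace Vale.Agent.P314

inductive NCFormula (F : Type) (n : ℕ) : Type
  | var : Fin n → NCFormula F n
  | const : F → NCFormula F n
  | add : NCFormula F n → NCFormula F n → NCFormula F n
  | mul : NCFormula F n → NCFormula F n → NCFormula F n

namespace NCFormula

variable {F : Type} {n : ℕ}

def size : NCFormula F n → ℕ
  | var _ => 1
  | const _ => 1
  | add a b => a.size + b.size + 1
  | mul a b => a.size + b.size + 1

def poly [Field F] : NCFormula F n → FreeAlgebra F (Fin n)
  | var i => FreeAlgebra.ι F i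
  | const c => algebraMap F (FreeAlgebra F (Fin n)) c
  | add a b => a.poly + b.poly
  | mul a b => a.poly * b.poly

end NCFormula

structure MatTuple (F : Type) (n : ℕ) : Type where
  dim : ℕ
  mat : Fin n → Matrix (Fin dim) (Fin dim) F

def MatTuple.eval {F : Type} [Field F] {n : ℕ} (T : MatTuple F n) :
    FreeAlgebra F (Fin n) →ₐ[F] Matrix (Fin T.dim) (Fin T.dim) F :=
  FreeAlgebra.lift F T.mat

def IsHittingSet {F : Type} [Field F] {n : ℕ} (H : List (MatTuple F n)) (s : ℕ) : Prop :=
  ∀ φ : NCFormula F n, φ.size ≤ s → φ.poly ≠ 0 → ∃ T ∈ H, T.eval φ.poly ≠ 0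

end Vale.Agent.P314
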