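import Mathlib
import Vale.Agent.P314.Basic

namespace Vale.Agent.P314

open Matrix

variable {F : Type} [Field F] {n w : ℕ}

def abpLayer (μ : Fin n → Matrix (Fin w) (Fin w) F) :
    Matrix (Fin w) (Fin w) (FreeAlgebra F (Fin n)) :=
  fun a b => ∑ i, μ i a b • FreeAlgebra.ι F i

def abpPoly (α β : Fin w → F) (μ : ℕ → Fin n → Matrix (Fin w) (Fin w) F) (D : ℕ) :
    FreeAlgebra F (Fin n) :=
  ∑ a, ∑ b, (α a * β b) • ((List.range D).map (fun j => abpLayer (μ j))).prod a b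

structure Rep (F : Type) (n : ℕ) (ι : Type) where
  a : ι → F
  T : Fin n → Matrix ι ι F
  b : ι → F

def Rep.letter (ξ : F) : Rep F n (Fin 2) where
  a := ![1, 0]
  T := fun i => !![0, ξ ^ (i : ℕ); 0, 0]
  b := ![0, 1]

def Rep.seq {ι κ : Type} [Fintype ι] (R : Rep F n ι) (S : Rep F n κ) : Rep F n (ι ⊕ κ) where
  a := Sum.elim R.a 0
  T := fun i => Matrix.fromBlocks (R.T i) (Matrix.vecMulVec (R.T i *ᵥ R.b) S.a) 0 (S.T i)
  b := Sum.elim 0 S.b

def Rep.dsum {ι : Type} (c : Fin w → F) (R : Fin w → Rep F n ι) : Rep F n (ι × Fin w) where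
  a := fun x => c x.2 * (R x.2).a x.1
  T := fun i => Matrix.blockDiagonal (fun l => (R l).T i)
  b := fun x => (R x.2).b x.1

def Rep.reindex {ι κ : Type} (e : ι ≃ κ) (R : Rep F n ι) : Rep F n κ where
  a := R.a ∘ e.symm
  T := fun i => Matrix.reindex e e (R.T i)
  b := R.b ∘ e.symm

def treeDim (w : ℕ) : ℕ → ℕ
  | 0 => 2
  | L + 1 => treeDim w L + treeDim w L * w

def treeBnd (n w : ℕ) : ℕ → ℕ
  | 0 => n
  | L + 1 => w * (2 * treeBnd n w L)

def treeRep (n w : ℕ) (g : F) : (L : ℕ) → F → Rep F n (Fin (treeDim w L))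
  | 0, ξ => Rep.letter ξ
  | L + 1, ξ =>
    Rep.reindex ((Equiv.sumCongr (Equiv.refl _) finProdFinEquiv).trans finSumFinEquiv)
      (Rep.seq (treeRep n w g L ξ)
        (Rep.dsum (fun l : Fin w => ξ ^ ((l : ℕ) * (2 * treeBnd n w L)))
          (fun l : Fin w => treeRep n w g L (g ^ (l : ℕ) * ξ))))

def treeHittingSet (n w L : ℕ) (g : F) : List (MatTuple F n) :=
  (List.range (treeBnd n w L)).map
    (fun k => (⟨treeDim w L, (treeRep n w g L (g ^ k)).T⟩ : MatTuple F n))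

end Vale.Agent.P314
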