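import Mathlib

namespace Vale.Agent.P314

open Polynomial Finset
open scoped Classical

variable {F : Type} [Field F]

theorem vandermonde_finset (w : ℕ) (I : Finset ℕ) (hI : I.card ≤ w) (c y : ℕ → F)
    (hy : ∀ i ∈ I, ∀ j ∈ I, y i = y j → i = j)
    (h : ∀ l < w, ∑ i ∈ I, c i * (y i) ^ l = 0) : ∀ i ∈ I, c i = 0 := by
  intro i0 hi0
  set q : F[X] := ∏ j ∈ I.erase i0, (X - C (y j)) with hq
  have hdeg : q.natDegree < w := by
    have h1 : q.natDegree = (I.erase i0).card := by
      rw [hq, Polynomial.natDegree_prod_of_monic _ _ (fun j _ => monic_X_sub_C _)]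
      simp
    rw [h1, Finset.card_erase_of_mem hi0]
    have : 0 < I.card := Finset.card_pos.2 ⟨i0, hi0⟩
    omega
  have hev : ∀ z : F, q.eval z = ∑ l ∈ range w, q.coeff l * z ^ l := fun z =>
    Polynomial.eval_eq_sum_range' hdeg z
  have h1 : ∑ i ∈ I, c i * q.eval (y i) = 0 := by
    simp_rw [hev, Finset.mul_sum]
    rw [Finset.sum_comm]
    apply Finset.sum_eq_zero
    intro l hl
    have := h l (Finset.mem_range.1 hl)
    calc ∑ i ∈ I, c i * (q.coeff l * y i ^ l) = q.coeff l * ∑ i ∈ I, c i * y i ^ l := by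
          rw [Finset.mul_sum]; apply Finset.sum_congr rfl; intros; ring
      _ = 0 := by rw [this, mul_zero]
  have h2 : ∑ i ∈ I, c i * q.eval (y i) = c i0 * q.eval (y i0) := by
    apply Finset.sum_eq_single_of_mem i0 hi0
    intro j hj hne
    have : q.eval (y j) = 0 := by
      rw [hq, Polynomial.eval_prod]
      apply Finset.prod_eq_zero (Finset.mem_erase.2 ⟨hne, hj⟩)
      simp
    rw [this, mul_zero]
  have h3 : q.eval (y i0) ≠ 0 := by
    rw [hq, Polynomial.eval_prod]
    apply Finset.prod_ne_zero_iff.2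
    intro j hj
    simp only [eval_sub, eval_X, eval_C]
    intro h0
    have := hy i0 hi0 j (Finset.mem_of_mem_erase hj) (sub_eq_zero.1 h0)
    exact (Finset.ne_of_mem_erase hj) this.symm
  rw [h2] at h1
  exact (mul_eq_zero.1 h1).resolve_right h3

theorem antidiag_lemma {w M : ℕ} (g : F)
    (hg : ∀ i < M, ∀ j < M, g ^ i = g ^ j → i = j)
    (P Q : ℕ → Fin w → F) (hQ : ∀ j, M ≤ j → Q j = 0)
    (h : ∀ s : ℕ, ∀ l < w,
      ∑ x ∈ Finset.HasAntidiagonal.antidiagonal s, (P x.1 ⬝ᵥ Q x.2) * (g ^ l) ^ x.2 = 0) :
    ∀ i j, P i ⬝ᵥ Q j = 0 := by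
  have key : ∀ s : ℕ, ∀ i j, i + j = s → P i ⬝ᵥ Q j = 0 := by
    intro s
    induction s using Nat.strong_induction_on with
    | _ s ih =>
      set I : Finset ℕ := (range (s + 1)).filter (fun i => P i ⬝ᵥ Q (s - i) ≠ 0) with hI
      have hmem : ∀ i, i ∈ I ↔ i ≤ s ∧ P i ⬝ᵥ Q (s - i) ≠ 0 := by
        intro i
        simp [hI]
      have hlin : LinearIndependent F (fun i : I => Q (s - (i : ℕ))) := by
        rw [linearIndependent_iff']
        intro t lam hsum
        by_contra hcon
        have hcon' : ∃ i ∈ t, lam i ≠ 0 := by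
          by_contra hh
          apply hcon
          intro i hi
          by_contra h0
          exact hh ⟨i, hi, h0⟩
        set t' := t.filter (fun i => lam i ≠ 0) with ht'
        have hne : t'.Nonempty := by
          obtain ⟨i, hi, h0⟩ := hcon'
          exact ⟨i, Finset.mem_filter.2 ⟨hi, h0⟩⟩
        set i0 := t'.min' hne with hi0
        have hi0mem : i0 ∈ t' := Finset.min'_mem _ _
        have hi0t : i0 ∈ t := (Finset.mem_filter.1 hi0mem).1
        have hlam0 : lam i0 ≠ 0 := (Finset.mem_filter.1 hi0mem).2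
        have hdot : P (i0 : ℕ) ⬝ᵥ (∑ i ∈ t, lam i • Q (s - (i : ℕ))) = 0 := by
          rw [hsum]; simp
        rw [dotProduct_sum] at hdot
        have hsingle : ∑ i ∈ t, P (i0 : ℕ) ⬝ᵥ (lam i • Q (s - (i : ℕ)))
            = P (i0 : ℕ) ⬝ᵥ (lam i0 • Q (s - (i0 : ℕ))) := by
          apply Finset.sum_eq_single_of_mem i0 hi0t
          intro i hi hne'
          rw [dotProduct_smul]
          by_cases hl : lam i = 0
          · rw [hl, zero_smul]
          · have hit' : i ∈ t' := Finset.mem_filter.2 ⟨hi, hl⟩
            have hle : i0 ≤ i := Finset.min'_le _ _ hit'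
            have hlt : (i0 : ℕ) < (i : ℕ) := by
              have h1 : (i0 : ℕ) ≤ (i : ℕ) := hle
              have h2 : (i0 : ℕ) ≠ (i : ℕ) := fun h => hne' (Subtype.ext h.symm)
              omega
            have his : (i : ℕ) ≤ s := ((hmem i).1 i.2).1
            rw [ih ((i0 : ℕ) + (s - (i : ℕ))) (by omega) _ _ rfl, smul_zero]
        rw [hsingle, dotProduct_smul, smul_eq_mul] at hdot
        exact ((hmem i0).1 i0.2).2 ((mul_eq_zero.1 hdot).resolve_left hlam0)
      have hcard : I.card ≤ w := by
        have := hlin.fintype_card_le_finrank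
        simpa using this
      have hzero : ∀ i ∈ I, P i ⬝ᵥ Q (s - i) = 0 := by
        apply vandermonde_finset w I hcard (fun i => P i ⬝ᵥ Q (s - i)) (fun i => g ^ (s - i))
        · intro i hi j hj hij
          have hi1 := (hmem i).1 hi
          have hj1 := (hmem j).1 hj
          have hiM : s - i < M := by
            by_contra hh
            apply hi1.2
            rw [hQ _ (not_lt.1 hh)]; simp
          have hjM : s - j < M := by
            by_contra hh
            apply hj1.2
            rw [hQ _ (not_lt.1 hh)]; simp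
          have := hg _ hiM _ hjM hij
          omega
        · intro l hl
          have h1 := h s l hl
          rw [Finset.Nat.sum_antidiagonal_eq_sum_range_succ
            (fun a b => (P a ⬝ᵥ Q b) * (g ^ l) ^ b)] at h1
          rw [hI, Finset.sum_filter]
          refine Eq.trans ?_ h1
          apply Finset.sum_congr rfl
          intro i _
          by_cases h0 : P i ⬝ᵥ Q (s - i) = 0
          · simp [h0]
          · rw [if_pos h0, ← pow_mul, ← pow_mul, mul_comm (s - i) l]
      intro i j hij
      by_contra hne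
      have hj : j = s - i := by omega
      have hiI : i ∈ I := (hmem i).2 ⟨by omega, by rw [← hj]; exact hne⟩
      apply hne
      rw [hj]
      exact hzero i hiI
  intro i j
  exact key (i + j) i j rfl

end Vale.Agent.P314
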