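import Mathlib
import Vale.Agent.P314.TreeDefs

namespace Vale.Agent.P314

open Matrix Finset

variable {F : Type} [Field F] {n w : ℕ}

def Rep.wt {ι : Type} [Fintype ι] [DecidableEq ι] (R : Rep F n ι) (u : List (Fin n)) : F :=
  R.a ⬝ᵥ ((u.map R.T).prod *ᵥ R.b)

theorem Rep.wt_reindex {ι κ : Type} [Fintype ι] [DecidableEq ι] [Fintype κ] [DecidableEq κ]
    (e : ι ≃ κ) (R : Rep F n ι) (u : List (Fin n)) : (R.reindex e).wt u = R.wt u := by
  have h1 : ∀ u : List (Fin n), (u.map (R.reindex e).T).prod
      = Matrix.reindex e e ((u.map R.T).prod) := by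
    intro u
    induction u with
    | nil => simp
    | cons i u ih =>
      simp only [List.map_cons, List.prod_cons, ih]
      simp [Rep.reindex, Matrix.submatrix_mul_equiv]
  unfold Rep.wt
  rw [h1]
  simp only [Rep.reindex, Matrix.reindex_apply]
  rw [Matrix.submatrix_mulVec_equiv]
  simp only [Equiv.symm_symm]
  rw [comp_equiv_symm_dotProduct]
  congr 1
  ext x
  simp [Function.comp_def]

theorem Rep.wt_dsum {ι : Type} [Fintype ι] [DecidableEq ι] (c : Fin w → F)
    (R : Fin w → Rep F n ι) (u : List (Fin n)) :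
    (Rep.dsum c R).wt u = ∑ l, c l * (R l).wt u := by
  have h1 : ∀ u : List (Fin n), (u.map (Rep.dsum c R).T).prod
      = Matrix.blockDiagonal (fun l => (u.map (R l).T).prod) := by
    intro u
    induction u with
    | nil =>
      simp only [List.map_nil, List.prod_nil]
      exact (Matrix.blockDiagonal_one).symm
    | cons i u ih =>
      simp only [List.map_cons, List.prod_cons, ih]
      simp only [Rep.dsum]
      rw [← Matrix.blockDiagonal_mul]
  unfold Rep.wt
  rw [h1]
  simp only [dotProduct, mulVec, Fintype.sum_prod_type, Matrix.blockDiagonal_apply, Rep.dsum]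
  rw [Finset.sum_comm]
  apply Finset.sum_congr rfl
  intro l _
  rw [Finset.mul_sum]
  apply Finset.sum_congr rfl
  intro x _
  rw [mul_assoc]
  congr 2
  apply Finset.sum_congr rfl
  intro y _
  simp

theorem Rep.col_seq {ι κ : Type} [Fintype ι] [DecidableEq ι] [Fintype κ] [DecidableEq κ]
    (R : Rep F n ι) (S : Rep F n κ) (u : List (Fin n)) :
    (u.map (R.seq S).T).prod *ᵥ (R.seq S).b =
      Sum.elim ((∑ k ∈ range (u.length + 1),
        S.wt (u.drop k) • (((u.take k).map R.T).prod *ᵥ R.b)) - S.wt u • R.b)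
        ((u.map S.T).prod *ᵥ S.b) := by
  induction u with
  | nil =>
    simp [Rep.seq]
  | cons i u ih =>
    simp only [List.map_cons, List.prod_cons]
    rw [← Matrix.mulVec_mulVec, ih]
    simp only [Rep.seq]
    rw [Matrix.fromBlocks_mulVec]
    simp only [Sum.elim_comp_inl, Sum.elim_comp_inr]
    congr 1
    · rw [Matrix.vecMulVec_mulVec]
      rw [List.length_cons, Finset.sum_range_succ' _ (u.length + 1)]
      simp only [List.drop_succ_cons, List.take_succ_cons, List.map_cons, List.prod_cons,
        List.drop_zero, List.take_zero, List.map_nil, List.prod_nil, Matrix.one_mulVec]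
      rw [Matrix.mulVec_sub, Matrix.mulVec_sum]
      simp only [Matrix.mulVec_smul, Matrix.mulVec_mulVec]
      have : MulOpposite.op (S.a ⬝ᵥ ((u.map S.T).prod *ᵥ S.b)) • (R.T i *ᵥ R.b)
          = S.wt u • (R.T i *ᵥ R.b) := by
        ext x
        simp [Rep.wt, mul_comm]
      rw [this]
      abel
    · simp [Matrix.mulVec_mulVec]

theorem Rep.wt_seq {ι κ : Type} [Fintype ι] [DecidableEq ι] [Fintype κ] [DecidableEq κ]
    (R : Rep F n ι) (S : Rep F n κ) (h0 : R.wt [] = 0) (u : List (Fin n)) :
    (R.seq S).wt u = ∑ k ∈ range (u.length + 1), R.wt (u.take k) * S.wt (u.drop k) := by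
  have h0' : R.a ⬝ᵥ R.b = 0 := by simpa [Rep.wt] using h0
  unfold Rep.wt at *
  rw [Rep.col_seq]
  simp only [Rep.seq]
  rw [sumElim_dotProduct_sumElim]
  simp only [zero_dotProduct, add_zero, dotProduct_sub, dotProduct_smul, h0', smul_zero, sub_zero]
  rw [dotProduct_sum]
  apply Finset.sum_congr rfl
  intro k _
  rw [dotProduct_smul, smul_eq_mul, mul_comm]
  rfl

end Vale.Agent.P314
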