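import Mathlib
import Vale.Agent.P314.TreeRep

namespace Vale.Agent.P314

open Matrix Finset Polynomial

variable {F : Type} [Field F] {n w : ℕ}

def TW (n : ℕ) : ℕ → Type
  | 0 => Fin n
  | L + 1 => TW n L × TW n L

instance TW.fintype (n : ℕ) : ∀ L, Fintype (TW n L)
  | 0 => inferInstanceAs (Fintype (Fin n))
  | L + 1 => by
    haveI := TW.fintype n L
    exact inferInstanceAs (Fintype (TW n L × TW n L))

def TW.flat : ∀ L, TW n L → List (Fin n)
  | 0, i => [i]
  | L + 1, t => TW.flat L t.1 ++ TW.flat L t.2

theorem TW.length_flat : ∀ L (t : TW n L), (TW.flat L t).length = 2 ^ L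
  | 0, _ => rfl
  | L + 1, t => by
    simp only [TW.flat, List.length_append, TW.length_flat L]
    ring

theorem TW.exists_flat : ∀ L (u : List (Fin n)), u.length = 2 ^ L → ∃ t : TW n L, TW.flat L t = u
  | 0, u, h => by
    match u, h with
    | [i], _ => exact ⟨i, rfl⟩
  | L + 1, u, h => by
    have h2 : 2 ^ (L + 1) = 2 ^ L + 2 ^ L := by ring
    obtain ⟨t1, h1⟩ := TW.exists_flat L (u.take (2 ^ L)) (by simp [h, h2])
    obtain ⟨t2, h3⟩ := TW.exists_flat L (u.drop (2 ^ L)) (by simp [h, h2])
    exact ⟨(t1, t2), by simp [TW.flat, h1, h3]⟩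

noncomputable def CPt (w : ℕ) (g : F) : ∀ L, TW n L → F[X]
  | 0, i => X ^ ((show Fin n from i : Fin n) : ℕ)
  | L + 1, t => ∑ l ∈ range w, X ^ (l * (2 * treeBnd n w L)) *
      (CPt w g L t.1 * (CPt w g L t.2).comp (C (g ^ l) * X))

theorem coeff_mul_vanish (p q : F[X]) (A B : ℕ) (hp : ∀ m, A ≤ m → p.coeff m = 0)
    (hq : ∀ m, B ≤ m → q.coeff m = 0) : ∀ m, A + B ≤ m → (p * q).coeff m = 0 := by
  intro m hm
  rw [Polynomial.coeff_mul]
  apply Finset.sum_eq_zero
  intro x hx
  have := Finset.HasAntidiagonal.mem_antidiagonal.1 hx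
  by_cases h : A ≤ x.1
  · rw [hp _ h, zero_mul]
  · rw [hq _ (by omega), mul_zero]

theorem CPt_coeff_vanish (g : F) : ∀ L (t : TW n L) (m : ℕ), treeBnd n w L ≤ m →
    (CPt w g L t).coeff m = 0
  | 0, i, m, hm => by
    have hi : ((show Fin n from i : Fin n) : ℕ) < n := (show Fin n from i).2
    simp only [CPt, Polynomial.coeff_X_pow]
    rw [if_neg]
    simp only [treeBnd] at hm
    omega
  | L + 1, t, m, hm => by
    simp only [CPt, Polynomial.finsetSum_coeff]
    apply Finset.sum_eq_zero
    intro l hl
    have hl' := Finset.mem_range.1 hl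
    rw [Polynomial.coeff_X_pow_mul']
    split_ifs with h
    · apply coeff_mul_vanish _ _ (treeBnd n w L) (treeBnd n w L) (CPt_coeff_vanish g L t.1)
      · intro m' hm'
        rw [Polynomial.comp_C_mul_X_coeff, CPt_coeff_vanish g L t.2 m' hm', zero_mul]
      · simp only [treeBnd] at hm
        have h1 : (l + 1) * (2 * treeBnd n w L) ≤ w * (2 * treeBnd n w L) :=
          Nat.mul_le_mul_right _ hl'
        have h2 : (l + 1) * (2 * treeBnd n w L) = l * (2 * treeBnd n w L) + 2 * treeBnd n w L := by
          ring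
        omega
    · rfl

theorem letter_wt_single (ξ : F) (i : Fin n) : (Rep.letter ξ : Rep F n (Fin 2)).wt [i] = ξ ^ (i : ℕ) := by
  simp [Rep.wt, Rep.letter, dotProduct, mulVec, Fin.sum_univ_two]

theorem letter_wt_other (ξ : F) (u : List (Fin n)) (hu : u.length ≠ 1) :
    (Rep.letter ξ : Rep F n (Fin 2)).wt u = 0 := by
  match u, hu with
  | [], _ => simp [Rep.wt, Rep.letter, dotProduct, Fin.sum_univ_two]
  | [i], h => exact absurd rfl h
  | i :: j :: u, _ =>
    have h : (Rep.letter ξ : Rep F n (Fin 2)).T i * (Rep.letter ξ : Rep F n (Fin 2)).T j = 0 := by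
      ext a b
      fin_cases a <;> fin_cases b <;> simp [Rep.letter, Matrix.mul_apply, Fin.sum_univ_two]
    simp only [Rep.wt, List.map_cons, List.prod_cons]
    rw [← mul_assoc, h]
    simp

theorem treeRep_wt_other (g : F) : ∀ L (ξ : F) (u : List (Fin n)), u.length ≠ 2 ^ L →
    (treeRep n w g L ξ).wt u = 0
  | 0, ξ, u, hu => letter_wt_other ξ u (by simpa using hu)
  | L + 1, ξ, u, hu => by
    simp only [treeRep]
    rw [Rep.wt_reindex, Rep.wt_seq _ _ (treeRep_wt_other g L ξ [] (by
      simp only [List.length_nil]; exact (pow_pos (by norm_num) L).ne))]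
    apply Finset.sum_eq_zero
    intro k hk
    have hk' := Finset.mem_range.1 hk
    by_cases h1 : (u.take k).length = 2 ^ L
    · have h2 : (u.drop k).length ≠ 2 ^ L := by
        intro h2
        apply hu
        have : u.length = (u.take k).length + (u.drop k).length := by
          conv_lhs => rw [← List.take_append_drop k u]
          rw [List.length_append]
        rw [this, h1, h2]; ring
      rw [Rep.wt_dsum]
      rw [Finset.sum_eq_zero, mul_zero]
      intro l _
      rw [treeRep_wt_other g L _ _ h2, mul_zero]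
    · rw [treeRep_wt_other g L _ _ h1, zero_mul]

theorem treeRep_wt_flat (g : F) : ∀ L (ξ : F) (t : TW n L),
    (treeRep n w g L ξ).wt (TW.flat L t) = (CPt w g L t).eval ξ
  | 0, ξ, i => by
    have h := letter_wt_single (n := n) ξ i
    simp only [CPt, Polynomial.eval_pow, Polynomial.eval_X]
    exact h
  | L + 1, ξ, t => by
    simp only [treeRep]
    rw [Rep.wt_reindex, Rep.wt_seq _ _ (treeRep_wt_other g L ξ [] (by
      simp only [List.length_nil]; exact (pow_pos (by norm_num) L).ne))]
    have hlen : (TW.flat (L + 1) t).length = 2 ^ L + 2 ^ L := by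
      rw [TW.length_flat]; ring
    rw [Finset.sum_eq_single_of_mem (2 ^ L) (by rw [Finset.mem_range, hlen]; omega)]
    · have h1 : (TW.flat (L + 1) t).take (2 ^ L) = TW.flat L t.1 := by
        simp only [TW.flat]
        rw [List.take_append_of_le_length (by rw [TW.length_flat])]
        rw [List.take_of_length_le (by rw [TW.length_flat])]
      have h2 : (TW.flat (L + 1) t).drop (2 ^ L) = TW.flat L t.2 := by
        simp only [TW.flat]
        rw [List.drop_append_of_le_length (by rw [TW.length_flat])]
        rw [List.drop_of_length_le (by rw [TW.length_flat])]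
        simp
      rw [h1, h2, Rep.wt_dsum, treeRep_wt_flat g L ξ t.1]
      simp only [CPt, Polynomial.eval_finsetSum, Polynomial.eval_mul, Polynomial.eval_pow,
        Polynomial.eval_X, Polynomial.eval_comp, Polynomial.eval_C]
      rw [Finset.mul_sum, ← Fin.sum_univ_eq_sum_range
        (fun l => ξ ^ (l * (2 * treeBnd n w L)) *
          (eval ξ (CPt w g L t.1) * eval (g ^ l * ξ) (CPt w g L t.2))) w]
      apply Finset.sum_congr rfl
      intro l _
      rw [treeRep_wt_flat g L _ t.2]
      ring
    · intro k hk hne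
      have hk' := Finset.mem_range.1 hk
      rw [treeRep_wt_other g L ξ _ (by
        rw [List.length_take, hlen]
        omega), zero_mul]

end Vale.Agent.P314
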