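import Mathlib
import Vale.Agent.P314.TreeLemmaA
import Vale.Agent.P314.TreeWords

namespace Vale.Agent.P314

open Matrix Finset Polynomial

variable {F : Type} [Field F] {n w : ℕ}

def Pm (μ : ℕ → Fin n → Matrix (Fin w) (Fin w) F) : ℕ → List (Fin n) → Matrix (Fin w) (Fin w) F
  | _, [] => 1
  | o, i :: u => μ o i * Pm μ (o + 1) u

theorem Pm_append (μ : ℕ → Fin n → Matrix (Fin w) (Fin w) F) :
    ∀ (u v : List (Fin n)) (o : ℕ), Pm μ o (u ++ v) = Pm μ o u * Pm μ (o + u.length) v
  | [], v, o => by simp [Pm]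
  | i :: u, v, o => by
    simp only [List.cons_append, Pm, List.length_cons]
    rw [Pm_append μ u v (o + 1), mul_assoc]
    congr 3
    ring

theorem block_sep (w κ : ℕ) (R : ℕ → F[X]) (hR : ∀ l m, κ ≤ m → (R l).coeff m = 0)
    (h : ∑ l ∈ range w, X ^ (l * κ) * R l = 0) : ∀ l < w, R l = 0 := by
  intro l hl
  ext r
  rw [Polynomial.coeff_zero]
  by_cases hr : κ ≤ r
  · exact hR l r hr
  · have hr' : r < κ := not_le.1 hr
    have h1 : (∑ l' ∈ range w, X ^ (l' * κ) * R l').coeff (l * κ + r) = 0 := by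
      rw [h, Polynomial.coeff_zero]
    rw [Polynomial.finsetSum_coeff, Finset.sum_eq_single_of_mem l (Finset.mem_range.2 hl)] at h1
    · rw [Polynomial.coeff_X_pow_mul', if_pos (by omega)] at h1
      simpa using h1
    · intro l' _ hne
      rw [Polynomial.coeff_X_pow_mul']
      split_ifs with hle
      · apply hR
        rcases Nat.lt_or_gt_of_ne hne with hlt | hgt
        · have : (l' + 1) * κ ≤ l * κ := Nat.mul_le_mul_right _ hlt
          have h2 : (l' + 1) * κ = l' * κ + κ := by ring
          omega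
        · exfalso
          have : (l + 1) * κ ≤ l' * κ := Nat.mul_le_mul_right _ hgt
          have h2 : (l + 1) * κ = l * κ + κ := by ring
          omega
      · rfl

theorem poly_lemmaA {M : ℕ} (g : F) (hg : ∀ i < M, ∀ j < M, g ^ i = g ^ j → i = j)
    (G H : Fin w → F[X]) (hH : ∀ k m, M ≤ m → (H k).coeff m = 0)
    (h : ∀ l < w, ∑ k, G k * (H k).comp (C (g ^ l) * X) = 0) :
    ∀ i j, ∑ k, (G k).coeff i * (H k).coeff j = 0 := by
  have := antidiag_lemma (w := w) (M := M) g hg (fun i k => (G k).coeff i)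
    (fun j k => (H k).coeff j) (by intro j hj; ext k; exact hH k j hj) (by
      intro s l hl
      have h1 : (∑ k, G k * (H k).comp (C (g ^ l) * X)).coeff s = 0 := by
        rw [h l hl, Polynomial.coeff_zero]
      rw [Polynomial.finsetSum_coeff] at h1
      simp only [Polynomial.coeff_mul, Polynomial.comp_C_mul_X_coeff] at h1
      rw [Finset.sum_comm] at h1
      rw [← h1]
      apply Finset.sum_congr rfl
      intro x _
      simp only [dotProduct]
      rw [Finset.sum_mul]
      apply Finset.sum_congr rfl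
      intro k _
      ring)
  intro i j
  exact this i j

theorem bilin_sum {R : Type} [Semiring R] [Algebra F R] {U V : Type} [Fintype U] [Fintype V]
    (a : U → Fin w → F) (b : V → Fin w → F) (P : U → R) (Q : V → R) :
    ∑ u, ∑ v, (∑ k, a u k * b v k) • (P u * Q v)
      = ∑ k, (∑ u, a u k • P u) * (∑ v, b v k • Q v) := by
  simp only [Finset.sum_mul_sum, Finset.sum_smul, smul_mul_smul_comm]
  rw [Finset.sum_comm]
  conv_lhs =>
    enter [2, v]
    rw [Finset.sum_comm]
  rw [Finset.sum_comm]
  apply Finset.sum_congr rfl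
  intro k _
  rw [Finset.sum_comm]

theorem treeBnd_le_succ (n w L : ℕ) (hw : 0 < w) : treeBnd n w L ≤ treeBnd n w (L + 1) := by
  simp only [treeBnd]
  nlinarith [Nat.zero_le (treeBnd n w L)]

theorem tree_indep (μ : ℕ → Fin n → Matrix (Fin w) (Fin w) F) (g : F) : ∀ (L : ℕ)
    (_ : ∀ i < treeBnd n w L, ∀ j < treeBnd n w L, g ^ i = g ^ j → i = j)
    (o : ℕ) (α β : Fin w → F),
    (∑ t : TW n L, (α ⬝ᵥ (Pm μ o (TW.flat L t) *ᵥ β)) • CPt w g L t = 0) →
    ∀ t : TW n L, α ⬝ᵥ (Pm μ o (TW.flat L t) *ᵥ β) = 0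
  | 0, _, o, α, β, h, t => by
    have h1 : (∑ t : TW n 0, (α ⬝ᵥ (Pm μ o (TW.flat 0 t) *ᵥ β)) • CPt w g 0 t).coeff
        ((show Fin n from t : Fin n) : ℕ) = 0 := by rw [h, Polynomial.coeff_zero]
    rw [Polynomial.finsetSum_coeff, Finset.sum_eq_single_of_mem t (Finset.mem_univ t)] at h1
    · simpa [CPt] using h1
    · intro t' _ hne
      simp only [CPt, Polynomial.coeff_smul, Polynomial.coeff_X_pow, smul_eq_mul]
      rw [if_neg, mul_zero]
      intro heq
      exact hne (Fin.ext heq.symm)
  | L + 1, hg, o, α, β, h, t => by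
    rcases Nat.eq_zero_or_pos w with hw | hw
    · subst hw
      simp [dotProduct]
    have hg' : ∀ i < treeBnd n w L, ∀ j < treeBnd n w L, g ^ i = g ^ j → i = j := fun i hi j hj =>
      hg i (lt_of_lt_of_le hi (treeBnd_le_succ n w L hw)) j
        (lt_of_lt_of_le hj (treeBnd_le_succ n w L hw))
    set o' := o + 2 ^ L with ho'
    set G : Fin w → F[X] := fun k => ∑ u : TW n L, ((α ᵥ* Pm μ o (TW.flat L u)) k) • CPt w g L u
      with hG
    set H : Fin w → F[X] := fun k => ∑ v : TW n L, ((Pm μ o' (TW.flat L v) *ᵥ β) k) • CPt w g L v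
      with hH
    have hcoef : ∀ u v : TW n L, α ⬝ᵥ (Pm μ o (TW.flat (L + 1) (u, v)) *ᵥ β)
        = ∑ k, (α ᵥ* Pm μ o (TW.flat L u)) k * (Pm μ o' (TW.flat L v) *ᵥ β) k := by
      intro u v
      simp only [TW.flat]
      rw [Pm_append, TW.length_flat, ← Matrix.mulVec_mulVec, Matrix.dotProduct_mulVec]
      rfl
    have hGv : ∀ k m, treeBnd n w L ≤ m → (G k).coeff m = 0 := by
      intro k m hm
      simp only [hG, Polynomial.finsetSum_coeff, Polynomial.coeff_smul]
      apply Finset.sum_eq_zero
      intro u _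
      rw [CPt_coeff_vanish g L u m hm, smul_zero]
    have hHv : ∀ k m, treeBnd n w L ≤ m → (H k).coeff m = 0 := by
      intro k m hm
      simp only [hH, Polynomial.finsetSum_coeff, Polynomial.coeff_smul]
      apply Finset.sum_eq_zero
      intro u _
      rw [CPt_coeff_vanish g L u m hm, smul_zero]
    have hident : ∑ t : TW n (L + 1), (α ⬝ᵥ (Pm μ o (TW.flat (L + 1) t) *ᵥ β)) • CPt w g (L + 1) t
        = ∑ l ∈ range w, X ^ (l * (2 * treeBnd n w L)) *
            ∑ k, G k * (H k).comp (C (g ^ l) * X) := by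
      have e1 : ∀ l : ℕ, ∑ k, G k * (H k).comp (C (g ^ l) * X)
          = ∑ u : TW n L, ∑ v : TW n L,
            (∑ k, (α ᵥ* Pm μ o (TW.flat L u)) k * (Pm μ o' (TW.flat L v) *ᵥ β) k) •
              (CPt w g L u * (CPt w g L v).comp (C (g ^ l) * X)) := by
        intro l
        rw [bilin_sum]
        apply Finset.sum_congr rfl
        intro k _
        simp only [hG, hH, Polynomial.sum_comp, Polynomial.smul_comp]
      simp only [e1]
      rw [show (∑ t : TW n (L + 1), (α ⬝ᵥ (Pm μ o (TW.flat (L + 1) t) *ᵥ β)) • CPt w g (L + 1) t)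
        = ∑ u : TW n L, ∑ v : TW n L, (α ⬝ᵥ (Pm μ o (TW.flat (L + 1) (u, v)) *ᵥ β)) •
            CPt w g (L + 1) (u, v) from Fintype.sum_prod_type _]
      simp only [hcoef, CPt, Finset.smul_sum, Finset.mul_sum]
      symm
      rw [Finset.sum_comm]
      apply Finset.sum_congr rfl
      intro u _
      rw [Finset.sum_comm]
      apply Finset.sum_congr rfl
      intro v _
      apply Finset.sum_congr rfl
      intro l _
      rw [mul_smul_comm]
    rw [hident] at h
    have hR := block_sep w (2 * treeBnd n w L)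
      (fun l => ∑ k, G k * (H k).comp (C (g ^ l) * X)) (by
        intro l m hm
        rw [Polynomial.finsetSum_coeff]
        apply Finset.sum_eq_zero
        intro k _
        apply coeff_mul_vanish _ _ (treeBnd n w L) (treeBnd n w L) (hGv k)
        · intro m' hm'
          rw [Polynomial.comp_C_mul_X_coeff, hHv k m' hm', zero_mul]
        · omega) h
    have hA := poly_lemmaA g hg' G H hHv hR
    have step1 : ∀ (j : ℕ) (u : TW n L),
        α ⬝ᵥ (Pm μ o (TW.flat L u) *ᵥ (fun k => (H k).coeff j)) = 0 := by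
      intro j
      apply tree_indep μ g L hg' o α (fun k => (H k).coeff j)
      ext i
      rw [Polynomial.coeff_zero, Polynomial.finsetSum_coeff, ← hA i j]
      simp only [hG, Polynomial.finsetSum_coeff, Polynomial.coeff_smul, smul_eq_mul,
        Finset.sum_mul]
      rw [Finset.sum_comm]
      apply Finset.sum_congr rfl
      intro u _
      rw [Matrix.dotProduct_mulVec]
      simp only [dotProduct, Finset.sum_mul]
      apply Finset.sum_congr rfl
      intro k _
      ring
    have step2 : ∀ (u v : TW n L),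
        (α ᵥ* Pm μ o (TW.flat L u)) ⬝ᵥ (Pm μ o' (TW.flat L v) *ᵥ β) = 0 := by
      intro u
      apply tree_indep μ g L hg' o' (α ᵥ* Pm μ o (TW.flat L u)) β
      ext j
      rw [Polynomial.coeff_zero, Polynomial.finsetSum_coeff]
      have h1 := step1 j u
      rw [Matrix.dotProduct_mulVec] at h1
      rw [← h1]
      simp only [hH, dotProduct, Polynomial.finsetSum_coeff, Polynomial.coeff_smul, smul_eq_mul,
        Finset.mul_sum, Finset.sum_mul]
      rw [Finset.sum_comm]
      apply Finset.sum_congr rfl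
      intro k _
      apply Finset.sum_congr rfl
      intro v _
      ring
    obtain ⟨u, v⟩ := t
    rw [hcoef u v]
    exact step2 u v

end Vale.Agent.P314
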