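import Mathlib
import Vale.Agent.P314.TreeMain

namespace Vale.Agent.P314

open Matrix Finset

variable {F : Type} [Field F] {n w : ℕ}

def word (F : Type) [Field F] {n : ℕ} (u : List (Fin n)) : FreeAlgebra F (Fin n) :=
  (u.map (FreeAlgebra.ι F)).prod

theorem word_append (u v : List (Fin n)) : word F (u ++ v) = word F u * word F v := by
  simp [word]

def layProd (μ : ℕ → Fin n → Matrix (Fin w) (Fin w) F) (o m : ℕ) :
    Matrix (Fin w) (Fin w) (FreeAlgebra F (Fin n)) :=
  ((List.range m).map (fun j => abpLayer (μ (o + j)))).prod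

theorem layProd_add (μ : ℕ → Fin n → Matrix (Fin w) (Fin w) F) (o a b : ℕ) :
    layProd μ o (a + b) = layProd μ o a * layProd μ (o + a) b := by
  simp only [layProd, List.range_add, List.map_append, List.prod_append, List.map_map]
  congr 3
  funext j
  simp [Function.comp, add_assoc]

theorem layProd_one (μ : ℕ → Fin n → Matrix (Fin w) (Fin w) F) (o : ℕ) :
    layProd μ o 1 = abpLayer (μ o) := by
  simp [layProd]

theorem layProd_zero (μ : ℕ → Fin n → Matrix (Fin w) (Fin w) F) (o : ℕ) :
    layProd μ o 0 = 1 := by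
  simp [layProd]

theorem abpPoly_eq (α β : Fin w → F) (μ : ℕ → Fin n → Matrix (Fin w) (Fin w) F) (D : ℕ) :
    abpPoly α β μ D = ∑ a, ∑ b, (α a * β b) • layProd μ 0 D a b := by
  simp [abpPoly, layProd]

theorem layProd_expand (μ : ℕ → Fin n → Matrix (Fin w) (Fin w) F) : ∀ (L o : ℕ) (a b : Fin w),
    layProd μ o (2 ^ L) a b = ∑ t : TW n L, (Pm μ o (TW.flat L t) a b) • word F (TW.flat L t)
  | 0, o, a, b => by
    rw [pow_zero, layProd_one]
    simp only [abpLayer]
    apply Finset.sum_congr rfl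
    intro t _
    simp [TW.flat, Pm, word]
  | L + 1, o, a, b => by
    have h2 : 2 ^ (L + 1) = 2 ^ L + 2 ^ L := by ring
    rw [h2, layProd_add, Matrix.mul_apply]
    simp only [layProd_expand μ L]
    rw [show (∑ t : TW n (L + 1), (Pm μ o (TW.flat (L + 1) t) a b) • word F (TW.flat (L + 1) t))
      = ∑ u : TW n L, ∑ v : TW n L, (Pm μ o (TW.flat (L + 1) (u, v)) a b) •
          word F (TW.flat (L + 1) (u, v)) from Fintype.sum_prod_type _]
    rw [← bilin_sum (fun u c => Pm μ o (TW.flat L u) a c)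
      (fun v c => Pm μ (o + 2 ^ L) (TW.flat L v) c b)]
    apply Finset.sum_congr rfl
    intro u _
    apply Finset.sum_congr rfl
    intro v _
    simp only [TW.flat]
    rw [Pm_append, TW.length_flat, word_append, Matrix.mul_apply]

theorem abpPoly_expand (α β : Fin w → F) (μ : ℕ → Fin n → Matrix (Fin w) (Fin w) F) (L : ℕ) :
    abpPoly α β μ (2 ^ L)
      = ∑ t : TW n L, (α ⬝ᵥ (Pm μ 0 (TW.flat L t) *ᵥ β)) • word F (TW.flat L t) := by
  rw [abpPoly_eq]
  simp only [layProd_expand, Finset.smul_sum, smul_smul]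
  conv_lhs =>
    enter [2, a]
    rw [Finset.sum_comm]
  rw [Finset.sum_comm]
  apply Finset.sum_congr rfl
  intro t _
  simp only [dotProduct, mulVec, Finset.mul_sum, Finset.sum_smul]
  apply Finset.sum_congr rfl
  intro a _
  apply Finset.sum_congr rfl
  intro b _
  congr 1
  ring

theorem sum4_reorder {A B C D M : Type} [Fintype A] [Fintype B] [Fintype C] [Fintype D]
    [AddCommMonoid M] (f : A → B → C → D → M) :
    ∑ a, ∑ b, ∑ c, ∑ d, f a b c d = ∑ d, ∑ c, ∑ b, ∑ a, f a b c d := by
  calc ∑ a, ∑ b, ∑ c, ∑ d, f a b c d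
      = ∑ a, ∑ b, ∑ d, ∑ c, f a b c d :=
        Finset.sum_congr rfl fun a _ => Finset.sum_congr rfl fun b _ => Finset.sum_comm
    _ = ∑ a, ∑ d, ∑ b, ∑ c, f a b c d := Finset.sum_congr rfl fun a _ => Finset.sum_comm
    _ = ∑ d, ∑ a, ∑ b, ∑ c, f a b c d := Finset.sum_comm
    _ = ∑ d, ∑ a, ∑ c, ∑ b, f a b c d :=
        Finset.sum_congr rfl fun d _ => Finset.sum_congr rfl fun a _ => Finset.sum_comm
    _ = ∑ d, ∑ c, ∑ a, ∑ b, f a b c d := Finset.sum_congr rfl fun d _ => Finset.sum_comm
    _ = ∑ d, ∑ c, ∑ b, ∑ a, f a b c d :=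
        Finset.sum_congr rfl fun d _ => Finset.sum_congr rfl fun c _ => Finset.sum_comm

theorem layProd_zero_of_coeffs (μ : ℕ → Fin n → Matrix (Fin w) (Fin w) F) (β : Fin w → F) :
    ∀ (D o : ℕ) (α : Fin w → F), (∀ u : List (Fin n), u.length = D → α ⬝ᵥ (Pm μ o u *ᵥ β) = 0) →
      ∑ a, ∑ b, (α a * β b) • layProd μ o D a b = 0
  | 0, o, α, h => by
    have h0 := h [] rfl
    simp only [Pm, Matrix.one_mulVec] at h0
    rw [layProd_zero]
    simp only [Matrix.one_apply, smul_ite, smul_zero, Finset.sum_ite_eq, Finset.mem_univ, if_true]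
    rw [← Finset.sum_smul]
    have : ∑ a, α a * β a = 0 := h0
    rw [this, zero_smul]
  | D + 1, o, α, h => by
    have key : ∑ a, ∑ b, (α a * β b) • layProd μ o (D + 1) a b
        = ∑ i, FreeAlgebra.ι F i *
            ∑ c, ∑ b, ((α ᵥ* μ o i) c * β b) • layProd μ (o + 1) D c b := by
      rw [Nat.add_comm D 1, layProd_add, layProd_one]
      simp only [Matrix.mul_apply, abpLayer, Matrix.vecMul, dotProduct, Finset.sum_mul,
        Finset.mul_sum, Finset.smul_sum, Finset.sum_smul, smul_mul_assoc, mul_smul_comm, smul_smul]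
      rw [sum4_reorder]
      apply Finset.sum_congr rfl
      intro i _
      apply Finset.sum_congr rfl
      intro c _
      apply Finset.sum_congr rfl
      intro b _
      apply Finset.sum_congr rfl
      intro a _
      congr 1
      ring
    rw [key]
    apply Finset.sum_eq_zero
    intro i _
    rw [layProd_zero_of_coeffs μ β D (o + 1) (α ᵥ* μ o i), mul_zero]
    intro u hu
    have := h (i :: u) (by simp [hu])
    simp only [Pm] at this
    rw [← Matrix.mulVec_mulVec, Matrix.dotProduct_mulVec] at this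
    exact this

end Vale.Agent.P314
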