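import Mathlib
import Vale.Agent.P314.TreeExpand

namespace Vale.Agent.P314

open Matrix Finset Polynomial

variable {F : Type} [Field F] {n w : ℕ}

def padMu (z : Fin n) (μ : ℕ → Fin n → Matrix (Fin w) (Fin w) F) (D : ℕ) :
    ℕ → Fin n → Matrix (Fin w) (Fin w) F :=
  fun j => if j < D then μ j else fun i => if i = z then 1 else 0

theorem layProd_congr (μ μ' : ℕ → Fin n → Matrix (Fin w) (Fin w) F) (o m : ℕ)
    (h : ∀ j < m, μ (o + j) = μ' (o + j)) : layProd μ o m = layProd μ' o m := by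
  unfold layProd
  congr 1
  apply List.map_congr_left
  intro j hj
  rw [h j (List.mem_range.1 hj)]

theorem abpLayer_pad (z : Fin n) (μ : ℕ → Fin n → Matrix (Fin w) (Fin w) F) (D j : ℕ)
    (hj : D ≤ j) :
    abpLayer (padMu z μ D j) = Matrix.diagonal (fun _ => FreeAlgebra.ι F z) := by
  ext a b
  simp only [abpLayer, padMu, if_neg (not_lt.2 hj)]
  rw [Finset.sum_eq_single_of_mem z (Finset.mem_univ z)]
  · simp only [if_true, Matrix.one_apply, Matrix.diagonal_apply]
    split_ifs <;> simp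
  · intro i _ hi
    simp [hi]

theorem layProd_pad (z : Fin n) (μ : ℕ → Fin n → Matrix (Fin w) (Fin w) F) (D o : ℕ)
    (ho : D ≤ o) : ∀ e : ℕ,
    layProd (padMu z μ D) o e = Matrix.diagonal (fun _ => (FreeAlgebra.ι F z) ^ e)
  | 0 => by
    rw [layProd_zero]
    simp
  | e + 1 => by
    rw [layProd_add, layProd_pad z μ D o ho e, layProd_one, abpLayer_pad z μ D _ (by omega),
      Matrix.diagonal_mul_diagonal]
    simp [pow_succ]

theorem abpPoly_pad (z : Fin n) (α β : Fin w → F) (μ : ℕ → Fin n → Matrix (Fin w) (Fin w) F)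
    (D e : ℕ) :
    abpPoly α β (padMu z μ D) (D + e) = abpPoly α β μ D * (FreeAlgebra.ι F z) ^ e := by
  rw [abpPoly_eq, abpPoly_eq, layProd_add, Nat.zero_add, layProd_pad z μ D D le_rfl e,
    layProd_congr (padMu z μ D) μ 0 D (by
      intro j hj
      simp [padMu, hj])]
  simp only [Matrix.mul_diagonal, Finset.sum_mul, smul_mul_assoc]

theorem Pm_pad_lt (z : Fin n) (μ : ℕ → Fin n → Matrix (Fin w) (Fin w) F) (D : ℕ) :
    ∀ (u : List (Fin n)) (o : ℕ), o + u.length ≤ D → Pm (padMu z μ D) o u = Pm μ o u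
  | [], o, _ => by simp [Pm]
  | i :: u, o, h => by
    simp only [List.length_cons] at h
    simp only [Pm]
    rw [Pm_pad_lt z μ D u (o + 1) (by omega)]
    have : o < D := by omega
    simp [padMu, this]

theorem Pm_pad_ge (z : Fin n) (μ : ℕ → Fin n → Matrix (Fin w) (Fin w) F) (D : ℕ) :
    ∀ (e o : ℕ), D ≤ o → Pm (padMu z μ D) o (List.replicate e z) = 1
  | 0, o, _ => by simp [Pm]
  | e + 1, o, h => by
    simp only [List.replicate_succ, Pm]
    rw [Pm_pad_ge z μ D e (o + 1) (by omega)]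
    have : ¬ o < D := by omega
    simp [padMu, this]

theorem eval_word (T : MatTuple F n) (u : List (Fin n)) :
    T.eval (word F u) = (u.map T.mat).prod := by
  simp only [word, MatTuple.eval, map_list_prod, List.map_map]
  congr 1
  apply List.map_congr_left
  intro i _
  simp

theorem exists_nonroot (B : ℕ) (g : F) (hg : ∀ i < B, ∀ j < B, g ^ i = g ^ j → i = j)
    (p : F[X]) (hp : ∀ m, B ≤ m → p.coeff m = 0) (h : ∀ k < B, p.eval (g ^ k) = 0) : p = 0 := by
  have hv := vandermonde_finset B (Finset.range B) (by simp) (fun i => p.coeff i)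
    (fun i => g ^ i)
    (by
      intro i hi j hj hij
      exact hg i (Finset.mem_range.1 hi) j (Finset.mem_range.1 hj) hij)
    (by
      intro l hl
      have h1 := h l hl
      rw [Polynomial.eval_eq_sum_range' (n := B)] at h1
      · rw [← h1]
        apply Finset.sum_congr rfl
        intro i _
        rw [← pow_mul, ← pow_mul, mul_comm i l]
      · by_contra hcon
        have hle : B ≤ p.natDegree := not_lt.1 hcon
        have h0 : p.leadingCoeff = 0 := hp _ hle
        rw [Polynomial.leadingCoeff_eq_zero] at h0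
        rw [h0] at hle
        simp only [Polynomial.natDegree_zero, Nat.le_zero] at hle
        omega)
  ext m
  rw [Polynomial.coeff_zero]
  by_cases hm : B ≤ m
  · exact hp m hm
  · exact hv m (Finset.mem_range.2 (not_le.1 hm))

theorem tree_hits (n w L : ℕ) (g : F) (hn : 0 < n)
    (hg : ∀ i < treeBnd n w L, ∀ j < treeBnd n w L, g ^ i = g ^ j → i = j)
    (α β : Fin w → F) (μ : ℕ → Fin n → Matrix (Fin w) (Fin w) F) (D : ℕ) (hD : D ≤ 2 ^ L)
    (hne : abpPoly α β μ D ≠ 0) :
    ∃ T ∈ treeHittingSet n w L g, T.eval (abpPoly α β μ D) ≠ 0 := by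
  set z : Fin n := ⟨0, hn⟩ with hz
  obtain ⟨e, he⟩ : ∃ e, 2 ^ L = D + e := ⟨2 ^ L - D, by omega⟩
  set μ' := padMu z μ D with hμ'
  -- a nonzero coefficient
  have hex : ∃ u : List (Fin n), u.length = D ∧ α ⬝ᵥ (Pm μ 0 u *ᵥ β) ≠ 0 := by
    by_contra hcon
    push Not at hcon
    apply hne
    rw [abpPoly_eq]
    exact layProd_zero_of_coeffs μ β D 0 α hcon
  obtain ⟨u, hu, hcu⟩ := hex
  obtain ⟨t0, ht0⟩ := TW.exists_flat L (u ++ List.replicate e z) (by simp [hu, he])
  have hc0 : α ⬝ᵥ (Pm μ' 0 (TW.flat L t0) *ᵥ β) ≠ 0 := by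
    rw [ht0, Pm_append, Pm_pad_lt z μ D u 0 (by omega), Pm_pad_ge z μ D e _ (by omega), mul_one]
    exact hcu
  set p : F[X] := ∑ t : TW n L, (α ⬝ᵥ (Pm μ' 0 (TW.flat L t) *ᵥ β)) • CPt w g L t with hp
  have hp0 : p ≠ 0 := fun h0 => hc0 (tree_indep μ' g L hg 0 α β h0 t0)
  have hpv : ∀ m, treeBnd n w L ≤ m → p.coeff m = 0 := by
    intro m hm
    rw [hp, Polynomial.finsetSum_coeff]
    apply Finset.sum_eq_zero
    intro t _
    rw [Polynomial.coeff_smul, CPt_coeff_vanish g L t m hm, smul_zero]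
  have hk : ∃ k < treeBnd n w L, p.eval (g ^ k) ≠ 0 := by
    by_contra hcon
    push Not at hcon
    exact hp0 (exists_nonroot _ g hg p hpv hcon)
  obtain ⟨k, hkB, hkne⟩ := hk
  refine ⟨⟨treeDim w L, (treeRep n w g L (g ^ k)).T⟩, ?_, ?_⟩
  · exact List.mem_map.2 ⟨k, List.mem_range.2 hkB, rfl⟩
  · intro h0
    apply hkne
    set T : MatTuple F n := ⟨treeDim w L, (treeRep n w g L (g ^ k)).T⟩ with hT
    have h1 : T.eval (abpPoly α β μ' (2 ^ L)) = 0 := by
      rw [he, hμ', abpPoly_pad, map_mul, h0, zero_mul]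
    rw [abpPoly_expand, map_sum] at h1
    have h2 : (treeRep n w g L (g ^ k)).a ⬝ᵥ
        ((∑ t : TW n L, T.eval ((α ⬝ᵥ (Pm μ' 0 (TW.flat L t) *ᵥ β)) • word F (TW.flat L t)))
          *ᵥ (treeRep n w g L (g ^ k)).b) = 0 := by
      rw [h1, Matrix.zero_mulVec, dotProduct_zero]
    rw [Matrix.sum_mulVec, dotProduct_sum] at h2
    rw [hp, Polynomial.eval_finsetSum, ← h2]
    apply Finset.sum_congr rfl
    intro t _
    rw [Polynomial.eval_smul, ← treeRep_wt_flat, map_smul, eval_word, Matrix.smul_mulVec,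
      dotProduct_smul]
    rfl

end Vale.Agent.P314
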